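import Vale.Agent.P117.Bdl.B2

open MeasureTheory Complex Set
open scoped ENNReal NNReal FourierTransform SchwartzMap

namespace Vale.Agent.Results.P117.Axial

/-- three-dimensional euclidean space -/
abbrev R3 := EuclideanSpace ℝ (Fin 3)

/-- the function belongs to the Schwartz space of three variables -/
def IsSchwartz (f : R3 → ℂ) : Prop := ∃ g : 𝓢(R3, ℂ), (g : R3 → ℂ) = f

/-- the norm of the Lebesgue space of exponent p -/
noncomputable def lpNorm (p : ℝ≥0∞) (f : R3 → ℂ) : ℝ≥0∞ := eLpNorm f p volume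

/-- the Bochner-Riesz operator of order delta -/
noncomputable def bochnerRiesz (δ : ℝ) (f : R3 → ℂ) (x : R3) : ℂ :=
  ∫ ξ : R3, (if ‖ξ‖ < 1 then (((1 - ‖ξ‖ ^ 2) ^ δ : ℝ) : ℂ) else 0) * 𝓕 f ξ *
    cexp (2 * Real.pi * I * (inner ℝ x ξ : ℝ))

/-- the function only depends on the third coordinate and on the distance to the third axis -/
def AxiallySymmetric (f : R3 → ℂ) : Prop :=
  ∀ x y : R3, x 2 = y 2 → x 0 ^ 2 + x 1 ^ 2 = y 0 ^ 2 + y 1 ^ 2 → f x = f y

/-- rotation by the angle phi about the third axis -/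
noncomputable def rotate (φ : ℝ) (x : R3) : R3 :=
  !₂[Real.cos φ * x 0 - Real.sin φ * x 1, Real.sin φ * x 0 + Real.cos φ * x 1, x 2]

/-- the derivative of order n in the angle about the third axis -/
noncomputable def angularDeriv (n : ℕ) (f : R3 → ℂ) (x : R3) : ℂ :=
  iteratedDeriv n (fun φ : ℝ => f (rotate φ x)) 0

theorem equi_zero {f : R3 → ℂ} (hf : AxiallySymmetric f) : Vale.Agent.P117.Equi 0 f := by
  intro φ x
  have h := hf (Vale.Agent.P117.rot φ x) x (Vale.Agent.P117.rot_two' φ x) (by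
    rw [Vale.Agent.P117.rot_zero', Vale.Agent.P117.rot_one']
    have h := Real.sin_sq_add_cos_sq φ
    linear_combination (x 0 ^ 2 + x 1 ^ 2) * h)
  rw [h]
  simp

theorem bochnerRiesz_eq (δ : ℝ) (f : R3 → ℂ) : bochnerRiesz δ f = Vale.Agent.P117.TB δ f := by
  ext x
  unfold bochnerRiesz Vale.Agent.P117.TB
  rw [Real.fourierInv_eq']
  congr 1
  ext ξ
  rw [smul_eq_mul, mul_comm]
  congr 1
  congr 1
  rw [real_inner_comm]
  push_cast
  ring

theorem angularDeriv_eq (n : ℕ) (f : 𝓢(R3, ℂ)) :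
    angularDeriv n f = ((Vale.Agent.P117.Dth ^ n) f : R3 → ℂ) := by
  ext x
  have h := Vale.Agent.P117.iteratedDeriv_orbit f x n 0
  rw [Vale.Agent.P117.rot_zero_apply] at h
  exact h

/-- **The Bochner-Riesz conjecture in three dimensions** for axially symmetric functions, and for all
functions with a loss of finitely many derivatives in the angle about one fixed axis. -/
theorem result (p : ℝ≥0∞) (hp : 1 ≤ p) (δ : ℝ)
    (hδ : max (3 * |(1 / p).toReal - 1 / 2| - 1 / 2) 0 < δ) :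
    (∃ C : ℝ≥0, ∀ f : R3 → ℂ, IsSchwartz f → AxiallySymmetric f →
      lpNorm p (bochnerRiesz δ f) ≤ C * lpNorm p f) ∧
    (∃ (N : ℕ) (C : ℝ≥0), ∀ f : R3 → ℂ, IsSchwartz f →
      lpNorm p (bochnerRiesz δ f) ≤ C * (lpNorm p f + lpNorm p (angularDeriv N f))) := by
  constructor
  · obtain ⟨K, C, hC, h⟩ := Vale.Agent.P117.mode_bound hp hδ
    refine ⟨Real.toNNReal C, ?_⟩
    rintro _ ⟨f, rfl⟩ hf
    have h1 := h 0 f (Vale.Agent.P117.adm_sch f) (Vale.Agent.P117.fint_sch f) (equi_zero hf)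
    rw [bochnerRiesz_eq]
    unfold lpNorm
    refine h1.trans (le_of_eq ?_)
    simp [ENNReal.ofReal]
  · obtain ⟨N, C, hC, h⟩ := Vale.Agent.P117.all_bound hp hδ
    refine ⟨N, Real.toNNReal C, ?_⟩
    rintro _ ⟨f, rfl⟩
    rw [bochnerRiesz_eq, angularDeriv_eq]
    exact h f

end Vale.Agent.Results.P117.Axial
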